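import Vale.Agent.P031.Cluster
open Set Filter

namespace Vale.Agent.Results.P031.ClusterPoint

open Vale.Agent.P031

/-- For every `c > 1` the number `c` is a cluster value of `V (c x) / V x` as `x → ∞`;
hence `c` is the only possible limit. -/
theorem result (c : ℝ) (hc : 1 < c) :
    (∀ ε : ℝ, 0 < ε → ∀ X : ℝ, ∃ x : ℝ, X ≤ x ∧ |(V (c * x) : ℝ) / V x - c| < ε) ∧
    (∀ l : ℝ, Tendsto (fun x : ℝ => (V (c * x) : ℝ) / V x) atTop (nhds l) → l = c) := by
  have hc0 : 0 < c := by linarith
  have main : ∀ ε : ℝ, 0 < ε → ∀ X : ℝ, ∃ x : ℝ, X ≤ x ∧ |(V (c * x) : ℝ) / V x - c| < ε := by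
    intro ε0 hε0 X0
    by_contra hcon
    have hcon' : ∀ x : ℝ, X0 ≤ x → ε0 ≤ |(V (c * x) : ℝ) / V x - c| := by
      intro x hx
      by_contra hlt
      exact hcon ⟨x, hx, not_le.1 hlt⟩
    -- shrink epsilon
    set ε : ℝ := min ε0 (c - 1) with hεdef
    have hε : 0 < ε := lt_min hε0 (by linarith)
    have hεc : ε < c := lt_of_le_of_lt (min_le_right _ _) (by linarith)
    -- large X1
    obtain ⟨K, hK⟩ := exists_nat_gt (c / (2 * ε))
    obtain ⟨X1', hX1'⟩ := (tendsto_V.eventually (eventually_ge_atTop K)).exists_forall_of_atTop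
    set X1 : ℝ := max (max X0 9) X1' with hX1def
    have hX1_0 : X0 ≤ X1 := le_trans (le_max_left _ _) (le_max_left _ _)
    have hX1_9 : 9 ≤ X1 := le_trans (le_max_right _ _) (le_max_left _ _)
    have hVK : ∀ x, X1 ≤ x → (c / (2 * ε)) < V x := by
      intro x hx
      have : K ≤ V x := hX1' x (le_trans (le_max_right _ _) hx)
      exact lt_of_lt_of_le hK (by exact_mod_cast this)
    have hVpos : ∀ x, X1 ≤ x → (0 : ℝ) < V x := by
      intro x hx
      exact lt_trans (by positivity) (hVK x hx)
    have dich : ∀ x, X1 ≤ x → (c + ε) * V x ≤ V (c * x) ∨ (V (c * x) : ℝ) ≤ (c - ε) * V x := by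
      intro x hx
      have h1 := hcon' x (hX1_0.trans hx)
      have h2 : ε ≤ |(V (c * x) : ℝ) / V x - c| := (min_le_left _ _).trans h1
      have hv := hVpos x hx
      rcases le_abs.1 h2 with h3 | h3
      · left
        have : c + ε ≤ (V (c * x) : ℝ) / V x := by linarith
        rwa [le_div_iff₀ hv] at this
      · right
        have : (V (c * x) : ℝ) / V x ≤ c - ε := by linarith
        rwa [div_le_iff₀ hv] at this
    -- local constancy
    have step : ∀ x y, X1 ≤ x → x ≤ y → y ≤ x + 1 / c →
        ((c + ε) * V x ≤ V (c * x) ↔ (c + ε) * V y ≤ V (c * y)) := by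
      intro x y hx hxy hyx
      have hy : X1 ≤ y := hx.trans hxy
      have a1 : (V x : ℝ) ≤ V y := by exact_mod_cast V_mono hxy
      have a2 : (V y : ℝ) ≤ V x + 1 := by
        have h1c : 1 / c ≤ 1 := by rw [div_le_one hc0]; exact hc.le
        exact_mod_cast V_le_add_one (show y ≤ x + 1 by linarith)
      have a3 : (V (c * x) : ℝ) ≤ V (c * y) := by
        exact_mod_cast V_mono (mul_le_mul_of_nonneg_left hxy hc0.le)
      have a4 : (V (c * y) : ℝ) ≤ V (c * x) + 1 := by
        have : c * y ≤ c * x + 1 := by
          have := mul_le_mul_of_nonneg_left hyx hc0.le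
          have h2 : c * (x + 1 / c) = c * x + 1 := by field_simp
          linarith
        exact_mod_cast V_le_add_one this
      have hvx := hVK x hx
      have hvy := hVK y hy
      rw [div_lt_iff₀ (by positivity)] at hvx hvy
      constructor
      · intro hplus
        rcases dich y hy with h | h
        · exact h
        · exfalso
          nlinarith
      · intro hplus
        rcases dich x hx with h | h
        · exact h
        · exfalso
          nlinarith
    have const_nat : ∀ k : ℕ, ((c + ε) * V X1 ≤ V (c * X1) ↔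
        (c + ε) * V (X1 + k / c) ≤ V (c * (X1 + k / c))) := by
      intro k
      induction k with
      | zero => simp
      | succ k ih =>
        rw [ih]
        have hk : 0 ≤ (k : ℝ) / c := by positivity
        apply step _ _ (by linarith)
        · push_cast
          have : (k : ℝ) / c ≤ (k + 1) / c := by gcongr; linarith
          linarith
        · push_cast
          have : ((k : ℝ) + 1) / c = k / c + 1 / c := by ring
          linarith
    have const_all : ∀ y, X1 ≤ y → ((c + ε) * V X1 ≤ V (c * X1) ↔ (c + ε) * V y ≤ V (c * y)) := by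
      intro y hy
      set k := ⌊(y - X1) * c⌋₊ with hk
      have hnn : 0 ≤ (y - X1) * c := mul_nonneg (by linarith) hc0.le
      have h1 : (k : ℝ) ≤ (y - X1) * c := Nat.floor_le hnn
      have h2 : (y - X1) * c < k + 1 := Nat.lt_floor_add_one _
      rw [const_nat k]
      have hkc : 0 ≤ (k : ℝ) / c := by positivity
      apply step _ _ (by linarith)
      · have : (k : ℝ) / c ≤ y - X1 := by rwa [div_le_iff₀ hc0]
        linarith
      · have : y - X1 < (k + 1) / c := by rwa [lt_div_iff₀ hc0]
        have h3 : ((k : ℝ) + 1) / c = k / c + 1 / c := by ring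
        linarith
    by_cases hS : (c + ε) * V X1 ≤ V (c * X1)
    · exact not_forall_ge hc hε (by linarith : (1 : ℝ) ≤ X1)
        (fun x hx => (const_all x hx).1 hS)
    · apply not_forall_le hc hε hεc hX1_9
      intro x hx
      rcases dich x hx with h | h
      · exact absurd ((const_all x hx).2 h) hS
      · exact h
  refine ⟨main, ?_⟩
  intro l hl
  by_contra hne
  have hpos : 0 < |l - c| / 2 := by
    have : 0 < |l - c| := abs_pos.2 (sub_ne_zero.2 hne)
    positivity
  have hev := (Metric.tendsto_nhds.1 hl) (|l - c| / 2) hpos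
  obtain ⟨X, hX⟩ := hev.exists_forall_of_atTop
  obtain ⟨x, hx, hx2⟩ := main (|l - c| / 2) hpos X
  have h1 := hX x hx
  rw [Real.dist_eq] at h1
  have : |l - c| ≤ |(V (c * x) : ℝ) / V x - l| + |(V (c * x) : ℝ) / V x - c| := by
    have := abs_sub_le l ((V (c * x) : ℝ) / V x) c
    rwa [abs_sub_comm l ((V (c * x) : ℝ) / V x)] at this
  linarith

end Vale.Agent.Results.P031.ClusterPoint
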